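import Vale.Agent.P011UT4.Defs
import Vale.Agent.P011UE1.Mah
import Vale.Agent.P011NB.NST
import Vale.Agent.P011NA.NSTOpen

/-!
The normal subgroup theorem from the existence of the open subgroup.
-/

set_option autoImplicit false
set_option linter.all false

namespace Vale.Agent.P011UW8

open Matrix Filter Topology Vale.Agent.P011ND Vale.Agent.P011UT4

/-- The open subgroup. -/
def OPN : Prop := ∀ (k ι n Γ : Type) [Field k] [CharZero k] [Fintype ι] [Fintype n]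
  [DecidableEq n] [Group Γ] (E : ι → Type) [∀ i, NontriviallyNormedField (E i)]
  [∀ i, ProperSpace (E i)] [∀ i, Algebra k (E i)] (O : Subring k) (v : ι) (M : n → Matrix n n k)
  (r : Γ →* Matrix n n k) H x0, An E O v M r H x0 → ∀ N : Subgroup Γ, N.Normal →
    (∃ n ∈ N, r n ≠ 1) → ∃ Mm : Subgroup (GG E n), (∀ g ∈ Mm, g ∈ closure (pp E r '' N)) ∧
      (∀ᶠ g in 𝓝 (1 : GG E n), g ∈ St E (dt M) → g ∈ Mm) ∧
      (∃ W, IsCompact W ∧ Subgroup.closure W = Mm) ∧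
      (∀ χ : GG E n → ℝ, ContinuousOn χ Mm → (∀ x ∈ Mm, ∀ y ∈ Mm, χ (x * y) = χ x + χ y) →
        ∀ x ∈ Mm, χ x = 0) ∧ pp E r x0 ∈ Mm ∧ (∀ g ∈ Mm, g v ∈ H) ∧ Mm ≤ St E (dt M)

variable {k ι n : Type} [Field k] [Fintype ι] [Fintype n] [DecidableEq n] {E : ι → Type}
  [∀ i, NontriviallyNormedField (E i)] [∀ i, ProperSpace (E i)] [∀ i, Algebra k (E i)]
  {O : Subring k}

theorem den_pow (H : Pls E O) {g : Matrix n n k} (hg : IsIntegral O g) :
    ∃ m ∈ O, m ≠ 0 ∧ ∀ j : ℕ, MI O (m • g ^ j) := by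
  classical
  obtain ⟨s, hs⟩ := hg.fg_adjoin_singleton
  choose m h1 h2 h3 using H.exists_den (n := n)
  refine ⟨∏ y ∈ s, m y, O.prod_mem fun y _ => h1 y, Finset.prod_ne_zero_iff.2 fun y _ => h2 y,
    fun j => ?_⟩
  have h4 : g ^ j ∈ Submodule.span O (s : Set (Matrix n n k)) := by
    rw [hs]
    exact pow_mem (Algebra.self_mem_adjoin_singleton O g) j
  refine Submodule.span_induction (p := fun y _ => MI O ((∏ y ∈ s, m y) • y)) ?_ ?_ ?_ ?_ h4
  · intro y hy a b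
    rw [← Finset.prod_erase_mul _ _ hy, mul_smul, Matrix.smul_apply, smul_eq_mul]
    exact O.mul_mem (O.prod_mem fun y _ => h1 y) (h3 y a b)
  · intro a b
    rw [smul_zero]
    exact O.zero_mem
  · intro x y _ _ hx hy a b
    rw [smul_add]
    exact O.add_mem (hx a b) (hy a b)
  · intro c x _ hx a b
    rw [smul_comm]
    exact O.mul_mem c.2 (hx a b)

/-- A power of an integral element has integral entries. -/
theorem pow_DO (H : Pls E O) {Γ : Type} [Group Γ] (r : Γ →* Matrix n n k) {x : Γ}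
    (h1 : IsIntegral O (r x)) (h2 : IsIntegral O (r x⁻¹)) : ∃ e : ℕ, 0 < e ∧ x ^ e ∈ DO r O := by
  obtain ⟨m, m1, m0, hm⟩ := den_pow H h1
  obtain ⟨m', m1', m0', hm'⟩ := den_pow H h2
  obtain ⟨Z, hZ, hZ'⟩ := H.finite_mod (m * m')
  choose z hz w hw hzw using hZ' (O.mul_mem m1 m1') (mul_ne_zero m0 m0')
  have key : ∀ i j : ℕ, (fun a b => z _ (hm i a b)) = (fun a b => z _ (hm j a b)) →
      MI O (r ((x ^ i)⁻¹ * x ^ j)) := by
    intro i j e
    have e1 : r x ^ j = r x ^ i + m' • Matrix.of fun a b => w _ (hm j a b) - w _ (hm i a b) := by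
      ext a b
      have e2 : z _ (hm i a b) = z _ (hm j a b) := congrFun (congrFun e a) b
      have e3 := hzw _ (hm j a b)
      have e4 := hzw _ (hm i a b)
      simp only [Matrix.add_apply, Matrix.smul_apply, of_apply, smul_eq_mul] at e3 e4 ⊢
      refine mul_left_cancel₀ m0 ?_
      linear_combination e3 - e4 - e2
    have e5 : MI O (Matrix.of fun a b => w _ (hm j a b) - w _ (hm i a b)) :=
      fun a b => O.sub_mem (hw _ _) (hw _ _)
    generalize (Matrix.of fun a b => w _ (hm j a b) - w _ (hm i a b)) = y at e1 e5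
    rw [map_mul, map_pow r x j, e1, mul_add, ← map_pow, ← map_mul, inv_mul_cancel, map_one,
      mul_smul_comm, ← smul_mul_assoc, ← inv_pow, map_pow]
    exact fun a b => O.add_mem (MI.one a b) (((hm' i).mul e5) a b)
  obtain ⟨i, j, hij, e⟩ := Set.Finite.exists_lt_map_eq_of_forall_mem
    (f := fun i : ℕ => fun a b => z _ (hm i a b)) (t := {f | ∀ a b, f a b ∈ Z})
    (fun i a b => hz _ _) (Set.Finite.pi' fun _ : n => Set.Finite.pi' fun _ : n => hZ)
  obtain ⟨d, rfl⟩ := Nat.exists_eq_add_of_lt hij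
  refine ⟨d + 1, d.succ_pos, ?_, ?_⟩
  · have := key _ _ e
    rwa [add_assoc, pow_add, inv_mul_cancel_left] at this
  · have := key _ _ e.symm
    rwa [add_assoc, add_comm i, pow_add, _root_.mul_inv_rev, (Commute.pow_pow_self x i
      (d + 1)).inv_inv.eq, inv_mul_cancel_right] at this

/-- **The normal subgroup theorem.** -/
theorem ana_of (coc : COC) (opn : OPN) : ANA := by
  intro k ι n Γ _ _ _ _ _ _ E _ _ _ O v M r H x0 h N hN hn
  classical
  obtain ⟨Mm, hMN, ho, ⟨W, hW, rfl⟩, hhom, hx0, hH, hSt⟩ := opn k ι n Γ E O v M r H x0 h N hN hn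
  let u := Units.coeHom (Matrix n n k)
  let S : Subgroup (Matrix n n k)ˣ :=
    { carrier := {g | (dt M).Stab g.1}
      one_mem' := Dt.Stab.one
      mul_mem' := fun a b => a.mul b
      inv_mem' := fun {g} a => a.inv g.mul_inv }
  let rS := u.comp S.subtype
  obtain ⟨C, hC, hc⟩ := coc k ι n E O M h.pls h.det h.ani S rS fun g hg =>
    ⟨⟨((isUnit_iff_isUnit_det g).2 (IsUnit.of_mul_eq_one _ (hg.det h.det.isUnit))).unit, hg⟩, rfl⟩
  have hS : closure (Set.range (pp E rS)) ⊆ St E (dt M) := closure_le_St E rS fun γ => γ.2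
  obtain ⟨C1, hC1, hc1⟩ := P011NB.cocompact_open (pp E rS) (DO rS O) (Subgroup.closure W)
    (fun g hg => closure_mono (by
      rintro _ ⟨γ, -, rfl⟩
      exact ⟨⟨r.toHomUnits γ, h.stab γ⟩, rfl⟩) (hMN g hg))
    ⟨_, ho, fun g hg hg' => hg (hS hg')⟩ ⟨C, hC, fun g hg => hc g (hS hg)⟩
  have hfg := P011UE1.fg_of_coc (pp E rS) (DO rS O) hW
    (h.pls.prop rS (Units.val_injective.comp Subtype.val_injective)) ⟨C1, hC1, hc1⟩
  set Λ := (DO rS O ⊓ (Subgroup.closure W).comap (pp E rS)).map S.subtype with hΛ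
  have hi : r.toHomUnits.range.relIndex Λ ≠ 0 := h.isg Λ (by
    obtain ⟨s, hs⟩ := hfg
    exact ⟨s.image S.subtype, by rw [Finset.coe_image, ← MonoidHom.map_closure, hs]⟩) (by
    rintro _ ⟨δ, hδ, rfl⟩
    exact ⟨_, hH _ hδ.2, rfl⟩)
  have hfin : Finite (Λ ⧸ r.toHomUnits.range.subgroupOf Λ) := Nat.finite_of_card_ne_zero hi
  let L := r.toHomUnits.range ⊓ (Subgroup.closure W).comap (pp E u)
  let r1 := u.comp L.subtype
  have hL : closure (Set.range (pp E r1)) ⊆ St E (dt M) := closure_le_St E r1 fun γ => by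
    obtain ⟨_, ⟨γ, rfl⟩, _⟩ := γ
    exact h.stab γ
  have hN1 : ((N.map r.toHomUnits).subgroupOf L).Normal := ⟨by
    rintro ⟨_, _⟩ ⟨a, ha, rfl⟩ ⟨_, ⟨g, rfl⟩, _⟩
    exact ⟨g * a * g⁻¹, hN.conj_mem a ha g, by simp⟩⟩
  have key := P011NA.nst_open (pp E r1) (DO r1 O) ((N.map r.toHomUnits).subgroupOf L)
    (Subgroup.closure W) (fun g _ => h.pls.comm r1 g)
    (h.pls.prop r1 (Units.val_injective.comp Subtype.val_injective))
    ⟨⋃ q : Λ ⧸ r.toHomUnits.range.subgroupOf Λ, (fun y => (pp E u q.out.1)⁻¹ * y) '' C1,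
      isCompact_iUnion fun q => hC1.image (by fun_prop), fun l => by
        obtain ⟨d, d1, d2, d3⟩ := hc1 _ l.2.2
        obtain ⟨⟨⟨_, ⟨a, ha, rfl⟩⟩, a1⟩, e⟩ := QuotientGroup.mk_out_eq_mul
          (r.toHomUnits.range.subgroupOf Λ) (⟨d.1, d, ⟨d1, d2⟩, rfl⟩ : Λ)⁻¹
        refine ⟨⟨a.1, a1, ha.2⟩, ha.1, Set.mem_iUnion.2
          ⟨QuotientGroup.mk (⟨d.1, d, ⟨d1, d2⟩, rfl⟩ : Λ)⁻¹, _, d3, ?_⟩⟩
        simp only [e]
        show (pp E u (d.1⁻¹ * a.1))⁻¹ * ((pp E u d.1)⁻¹ * _) = (pp E u a.1)⁻¹ * _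
        rw [map_mul, map_inv, _root_.mul_inv_rev, inv_inv, mul_assoc, mul_inv_cancel_left]
        rfl⟩
    ⟨_, ho, fun g hg hg' => hg (hL hg')⟩ (fun g hg => mem_closure_iff_nhds.2 fun V hV => by
      have h1 : ∀ᶠ y in 𝓝 g, g⁻¹ * y ∈ St E (dt M) → g⁻¹ * y ∈ Subgroup.closure W :=
        (show Continuous fun y : GG E n => g⁻¹ * y by fun_prop).continuousAt.eventually
          (p := fun y => y ∈ St E (dt M) → y ∈ Subgroup.closure W) (by simpa using ho)
      obtain ⟨_, ⟨y1, y2⟩, a, ha, rfl⟩ := mem_closure_iff_nhds.1 (hMN g hg) _ (inter_mem hV h1)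
      have h2 := mul_mem hg (y2 (mul_mem (inv_mem (hSt hg)) fun i =>
        (h.stab a).map (algebraMap k (E i))))
      rw [mul_inv_cancel_left] at h2
      exact ⟨_, y1, ⟨r.toHomUnits a, ⟨a, rfl⟩, h2⟩, ⟨a, ha, rfl⟩, rfl⟩)
    ⟨W, hW, rfl⟩ fun χ c1 c2 _ => hhom χ c1 c2
  obtain ⟨m, m0, hm⟩ := pow_DO h.pls r h.int.1 h.int.2
  have h3 : pp E r (x0 ^ m) ∈ Subgroup.closure W := by
    rw [map_pow]
    exact pow_mem hx0 m
  obtain ⟨e, he, -, ⟨a, ha, e1⟩, -⟩ := Subgroup.exists_pow_mem_of_relIndex_ne_zero key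
    (a := ⟨r.toHomUnits (x0 ^ m), ⟨_, rfl⟩, h3⟩)
    ⟨⟨hm.1, by have := hm.2; rwa [← r.coe_toHomUnits, map_inv] at this⟩, h3⟩
  refine ⟨m * e, Nat.mul_pos m0 he, a, ha, ?_⟩
  rw [pow_mul, map_pow]
  exact (Units.val_pow_eq_pow_val (r.toHomUnits (x0 ^ m)) e).symm.trans
    (congrArg Units.val e1).symm

end Vale.Agent.P011UW8
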